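import Vale.Agent.P269.G1I.All
import Vale.Agent.P269.G1I.BAbs
import Vale.Agent.P269.G2I.BDefs
import Vale.Agent.P269.G2I.H980.DescendLe
/-!
# [G2-D] all insertions, even dimension: leaves
-/

namespace Vale.Agent.P269.G2

open Finset.HasAntidiagonal (antidiagonal)
open Vale.Agent.P269.CI
open Vale.Agent.P269.G1 (toSer Sym Big)
open Vale.Agent.P269.H597 (coh)

variable {X : CompleteIntersection} {n : ℕ} (E : Fam X n) {F : ℕ → ℕ → List (Ins X) → ℂ}

/-- topological recursion in genus one for all classes -/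
def Trr1 (F : ℕ → ℕ → List (Ins X) → ℂ) : Prop := ∀ d (a : Ix X) m L,
  F 1 d ((a, m + 1) :: L) =
    (∑ α, ∑ β, pairingInv X α β * mulS (cor F 0 [(a, m), (α, 0)]) (cor F 1 [(β, 0)]) d L) +
    1 / 24 * ∑ α, ∑ β, pairingInv X α β * F 0 d ((a, m) :: (α, 0) :: (β, 0) :: L)

/-- genus-zero invariants with exactly one primitive insertion vanish -/
def Mono1 (F : ℕ → ℕ → List (Ins X) → ℂ) : Prop :=
  ∀ d (v : X.Prim) (m : ℕ) (L : List (Ins X)), (∀ x ∈ L, ∃ j, x.1 = Sum.inl j) →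
    F 0 d ((Sum.inr v, m) :: L) = 0

/-! ### the vectors `l_k τ` -/

end Vale.Agent.P269.G2
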