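import Vale.Agent.P269.G1I.All
import Vale.Agent.P269.G1I.BAbs
import Vale.Agent.P269.G2I.BDefs
import Vale.Agent.P269.G2I.BSpec1
import Vale.Agent.P269.G2I.H980.DescendLe
import Vale.Agent.P269.G2I.T.H302_DG
import Vale.Agent.P269.G2I.T.H302_DH
import Vale.Agent.P269.G2I.T.H410_BWdvv
import Vale.Agent.P269.G2I.T.H780_CU
import Vale.Agent.P269.G2I.T.H980_GString
/-!
# [G2-D] all insertions, even dimension: leaves
-/

namespace Vale.Agent.P269.G2

open Finset.HasAntidiagonal (antidiagonal)
open Vale.Agent.P269.CI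
open Vale.Agent.P269.G1 (toSer Sym Big)
open Vale.Agent.P269.H597 (coh)

variable {X : CompleteIntersection} {n : ℕ} (E : Fam X n) {F : ℕ → ℕ → List (Ins X) → ℂ}

/-- the data at a general point of the big phase space -/
noncomputable def big (hF : IsGW X F) (he : Even X.dim) (h1 : Trr1 F) :
    Big (Fin n) (Ix X) (RB n) (OB X n) where
  D i f := MvPowerSeries.pderiv (PowerSeries ℂ) i f
  D_add i f g := map_add _ f g
  D_mul i f g := by
    rw [Derivation.leibniz, smul_eq_mul, smul_eq_mul]
    ring
  DO := dB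
  DO_add := bDO_add
  DO_mul := bDO_mul
  DO_smul := bDO_smul
  act := actB X n
  D_act := bD_act
  str := strB X n
  str_comm := bstr_comm
  D_str := bD_str
  C := CB E F
  C_comm := CB_comm E hF he
  C_mul := CB_mul E hF he
  mu := muB X n
  DO_mu := bDO_mu
  U := UB E F
  w := wB E F
  g := gB E F
  C_g := CB_g E hF he
  C_U := CB_U E hF he
  D_g := bD_g E hF he
  D_w := bD_w E hF he
  DO_U := bDO_U E hF he
  C_symm := bC_symm E hF he
  i0 := E.i0
  w_zero := bw_zero E
  w_succ := bw_succ E
  G := GB E F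
  G_symm := bG_symm E hF he h1

/-! ### the vectors `l_k τ` -/

end Vale.Agent.P269.G2
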