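import Vale.Agent.P269.G1I.Alg
import Vale.Agent.P269.G1I.All
import Vale.Agent.P269.G1I.Poly
import Vale.Agent.P269.G1I.ZAbs
import Vale.Agent.P269.G2I.BSpec1
import Vale.Agent.P269.G2I.Defs
import Vale.Agent.P269.G2I.QA
/-!
# The full small phase space in even dimension
-/

namespace Vale.Agent.P269.G2

open Finset.HasAntidiagonal (antidiagonal)
open Vale.Agent.P269.CI
open Vale.Agent.P269.G1 (toSer kk DD aK Big Frob)
open Vale.Agent.P269.H597 (coh)

/-- the number of classes -/
abbrev nx (X : CompleteIntersection) : ℕ := Fintype.card (Ix X)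

/-- functions on the small phase space -/
abbrev RM (X : CompleteIntersection) := RB (nx X)

/-- the family of all classes without descendants -/
noncomputable def E0 (X : CompleteIntersection) : Fam X (nx X) where
  e i := ((Fintype.equivFin (Ix X)).symm i, 0)
  i0 b := Fintype.equivFin (Ix X) b
  e_i0 b := by simp

variable {X : CompleteIntersection} {F : ℕ → ℕ → List (Ins X) → ℂ}

/-- partial derivative in the direction of a class -/
noncomputable def pd (b : Ix X) (f : RM X) : RM X :=
  MvPowerSeries.pderiv (PowerSeries ℂ) ((E0 X).i0 b) f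

/-- structure constants of the quantum product -/
noncomputable def qc (F : ℕ → ℕ → List (Ins X) → ℂ) (a b c : Ix X) : RM X :=
  ∑ l : Ix X, pairingInv X l c • sr (E0 X) (cor F 0 [(a, 0), (b, 0), (l, 0)])

/-- the adjoint of `S_k` -/
noncomputable def STB (F : ℕ → ℕ → List (Ins X) → ℂ) : ℕ → OB X (nx X)
  | 0 => 1
  | k + 1 => Matrix.of fun c b => ∑ a : Ix X, pairingInv X a c • VB (E0 X) F (a, k) (b, 0)

/-- `S_k` for integers `k` -/
noncomputable def SZ (F : ℕ → ℕ → List (Ins X) → ℂ) (k : ℤ) : OB X (nx X) :=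
  if k < 0 then 0 else SB (E0 X) F k.toNat

/-- functions of `μ` -/
noncomputable def fmu (X : CompleteIntersection) (n : ℕ) (g : ℂ → ℂ) : OB X n :=
  Matrix.diagonal fun b => cb n (g (mu X b))

/-- `[x]^{K-1}_i` at `x = μ + m + 1/2` -/
noncomputable def ee (X : CompleteIntersection) (n : ℕ) (m : ℤ) (K i : ℕ) : OB X n :=
  fmu X n (fun x => esym K i (x + (m : ℂ) + 1 / 2))

variable (hF : IsGW X F) (he : Even X.dim)

end Vale.Agent.P269.G2
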