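import Vale.Agent.P269.G1I.Alg
import Vale.Agent.P269.G1I.All
import Vale.Agent.P269.G1I.Poly
import Vale.Agent.P269.G1I.ZAbs
import Vale.Agent.P269.G2I.BSpec1
import Vale.Agent.P269.G2I.Defs
import Vale.Agent.P269.G2I.Model1
import Vale.Agent.P269.G2I.QA
import Vale.Agent.P269.G2I.T.H598_M1
/-!
# The full small phase space in even dimension
-/

namespace Vale.Agent.P269.G2

open Finset.HasAntidiagonal (antidiagonal)
open Vale.Agent.P269.CI
open Vale.Agent.P269.G1 (toSer kk DD aK Big Frob)
open Vale.Agent.P269.H597 (coh)

variable {X : CompleteIntersection} {F : ℕ → ℕ → List (Ins X) → ℂ}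

/-- the structure constants -/
noncomputable def consts (hF : IsGW X F) (he : Even X.dim) : Consts (Ix X) (one X) (RM X) where
  c := qc F
  comm := qc_comm hF he
  assoc := qc_assoc hF he
  unit := qc_unit hF he

/-- the quantum algebra -/
abbrev AM (hF : IsGW X F) (he : Even X.dim) : Type := QA (consts hF he)

variable (hF : IsGW X F) (he : Even X.dim)

/-- the two notations for the quantum product -/
theorem CB_eq (x : AM hF he) : CB (E0 X) F x = QA.mat _ x := rfl

/-- derivative along a vector field -/
noncomputable def der (x : AM hF he) (f : RM X) : RM X := ∑ b, x b * pd b f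

/-- the flat connection -/
noncomputable def nab (x y : AM hF he) : AM hF he := fun k => der hF he x (y k)

/-- the grading operator -/
noncomputable def dd : AM hF he →ₗ[RM X] AM hF he where
  toFun x := fun k => ((hp X k : ℕ) : RM X) * x k
  map_add' x y := by
    funext k
    change _ * (x k + y k) = _ * x k + _ * y k
    ring
  map_smul' r x := by
    funext k
    change _ * (r * x k) = r * (_ * x k)
    ring

/-- the Euler field `∑ (1 - p_a) u_a e_a + ν e_h` -/
noncomputable def EM : AM hF he := fun k =>
  (1 - ((hp X k : ℕ) : RM X)) * MvPowerSeries.X ((E0 X).i0 k) +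
    if k = hcls X then ((index X : ℤ) : RM X) else 0

/-- covariant derivative of operators -/
noncomputable def nabO (x : AM hF he) (a : OB X (nx X)) : OB X (nx X) := a.map (der hF he x)

/-- the derivative of the genus one potential -/
noncomputable def GG : AM hF he →ₗ[RM X] RM X := GB (E0 X) F

end Vale.Agent.P269.G2
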