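import Vale.Agent.P269.G1I.Alg
import Vale.Agent.P269.G1I.All
import Vale.Agent.P269.G1I.Poly
import Vale.Agent.P269.G1I.ZAbs
import Vale.Agent.P269.G2I.BSpec1
import Vale.Agent.P269.G2I.Defs
import Vale.Agent.P269.G2I.Model1
import Vale.Agent.P269.G2I.Model2
import Vale.Agent.P269.G2I.QA
import Vale.Agent.P269.G2I.T.H302_M23
import Vale.Agent.P269.G2I.T.H302_M5
import Vale.Agent.P269.G2I.T.H598_C46
/-!
# The full small phase space in even dimension
-/

namespace Vale.Agent.P269.G2

open Finset.HasAntidiagonal (antidiagonal)
open Vale.Agent.P269.CI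
open Vale.Agent.P269.G1 (toSer kk DD aK Big Frob)
open Vale.Agent.P269.H597 (coh)

variable {X : CompleteIntersection} {F : ℕ → ℕ → List (Ins X) → ℂ}

variable (hF : IsGW X F) (he : Even X.dim)

/-- The full small phase space. -/
noncomputable def frob : Frob (RM X) (AM hF he) (OB X (nx X)) where
  der := der hF he
  der_add_left := der_add_left hF he
  der_smul_left := der_smul_left hF he
  der_add := der_add hF he
  der_mul := der_mul hF he
  der_rat := der_rat hF he
  nab := nab hF he
  nab_add_left := nab_add_left hF he
  nab_smul_left := nab_smul_left hF he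
  nab_add := nab_add hF he
  nab_smul := nab_smul hF he
  nab_one := nab_one hF he
  der_comm := der_comm hF he
  d := dd hF he
  d_one := d_one hF he
  nab_d := nab_d hF he
  E := EM hF he
  nab_E := nab_E hF he
  c4_symm := c4_symm hF he
  c4_E := c4_E hF he
  c5_symm := c5_symm hF he
  C := QA.mat _
  mu := muB X (nx X)
  nabO := nabO hF he
  nabO_add := nabO_add hF he
  nabO_mul := nabO_mul hF he
  nabO_smul := nabO_smul hF he
  nabO_mu := nabO_mu hF he
  nabO_U := nabO_U hF he
  c4O_symm := c4O_symm hF he
  str := strB X (nx X)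
  str_comm := str_comm
  der_str := der_str hF he
  rho := (X.dim : ℚ) / 2
  G := GG hF he
  G_symm := G_symm hF he
  G_one := G_one hF he
  der_G_E x := by
    rw [G_E hF he]
    exact der_cb hF he x _

end Vale.Agent.P269.G2
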