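import Vale.Agent.P269.G2I.BSpec1
import Vale.Agent.P269.G2I.H333.Rho
import Vale.Agent.P269.G2I.H984.Top
import Vale.Agent.P269.G2I.Model1
import Vale.Agent.P269.G2I.Model2
/-!
# From the full small phase space to the top row: leaves
-/

namespace Vale.Agent.P269.G2

open Finset.HasAntidiagonal (antidiagonal)
open Polynomial (aeval)
open Vale.Agent.P269.CI
open Vale.Agent.P269.G1 (RR ser cst lamc Eu lam AA cq)
open Vale.Agent.P269.G2.H333 (ev0)
open Vale.Agent.P269.G2.H984 (RF rhoc dP)

variable {X : CompleteIntersection} {F : ℕ → ℕ → List (Ins X) → ℂ}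

/-- renaming of the variables -/
noncomputable def phi (X : CompleteIntersection) : RM X →+* RF X :=
  ((MvPowerSeries.renameEquiv (PowerSeries ℂ) (Fintype.equivFin (Ix X)).symm).toAlgHom).toRingHom

/-- the characteristic polynomial of the multiplication by the Euler field -/
noncomputable def chi (hF : IsGW X F) (he : Even X.dim) : Polynomial (RM X) :=
  (QA.mat _ (EM hF he)).charpoly

end Vale.Agent.P269.G2
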