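import Vale.Agent.P269.G2I.BSpec1
import Vale.Agent.P269.G2I.H521.Getzler
import Vale.Agent.P269.G2I.H984.SmallLe
import Vale.Agent.P269.G2I.Model1
import Vale.Agent.P269.G2I.Model2
import Vale.Agent.P269.G2I.XSpec1
/-!
# Cubic hypersurfaces of even dimension: definitions and leaves
-/

namespace Vale.Agent.P269.CI

variable {X : CompleteIntersection}

/-- Known genus-zero numbers of a cubic hypersurface: degree one with two or four primitive
insertions, and the contraction of two primitive insertions with the pairing, which is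
invariant under monodromy. -/
structure IsCubic (F : ℕ → ℕ → List (Ins X) → ℂ) : Prop where
  two : ∀ (u v : X.Prim) (i j : Fin (X.dim + 1)), 1 ≤ (i : ℕ) → 1 ≤ (j : ℕ) →
    (i : ℕ) + j = X.dim →
    F 0 1 [(Sum.inr u, 0), (Sum.inr v, 0), (Sum.inl i, 0), (Sum.inl j, 0)] = -6 * X.form u v
  four : ∀ u v w z : X.Prim,
    F 0 1 [(Sum.inr u, 0), (Sum.inr v, 0), (Sum.inr w, 0), (Sum.inr z, 0)] =
      X.form u v * X.form w z + X.form u w * X.form v z + X.form u z * X.form v w
  schur : ∃ Λ : ℕ → List (Ins X) → ℂ, ∀ d (u v : X.Prim) L, (∀ x ∈ L, IsAmb X x) →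
    ∑ w, ∑ z, pairingInv X (Sum.inr w) (Sum.inr z) *
      F 0 d ((Sum.inr u, 0) :: (Sum.inr v, 0) :: (Sum.inr w, 0) :: (Sum.inr z, 0) :: L) =
      X.form u v * Λ d L

end Vale.Agent.P269.CI

namespace Vale.Agent.P269.G2

open Finset.HasAntidiagonal (antidiagonal)
open Vale.Agent.P269.CI
open Vale.Agent.P269.G1 (RR ser cst lamc Eu lam AA cq)
open Vale.Agent.P269.G2.H333 (ev0)
open Vale.Agent.P269.G2.H984 (RF rhoc dP aM)

variable {X : CompleteIntersection} {F : ℕ → ℕ → List (Ins X) → ℂ}

/-- the quantum Euler class -/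
noncomputable def cas (hF : IsGW X F) (he : Even X.dim) : AM hF he :=
  ∑ a : Ix X, ∑ b : Ix X, cb (nx X) (pairingInv X a b) •
    (H521.be hF he a * H521.be hF he b)

/-- the value at the origin -/
noncomputable def og (f : RR X) : PowerSeries ℂ := MvPowerSeries.constantCoeff f

/-- the number of primitive classes -/
noncomputable def np (X : CompleteIntersection) : ℂ := (Fintype.card X.Prim : ℂ)

end Vale.Agent.P269.G2
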