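import Vale.Agent.P269.G2I.BSpec1
import Vale.Agent.P269.G2I.H333.Rho
import Vale.Agent.P269.G2I.H984.Top
import Vale.Agent.P269.G2I.Model1
import Vale.Agent.P269.G2I.T.H302_DF
import Vale.Agent.P269.G2I.T.H984_SmallLe
import Vale.Agent.P269.G2I.XSpec1
/-!
# From the full small phase space to the top row: leaves
-/

namespace Vale.Agent.P269.G2

open Finset.HasAntidiagonal (antidiagonal)
open Polynomial (aeval)
open Vale.Agent.P269.CI
open Vale.Agent.P269.G1 (RR ser cst lamc Eu lam AA cq)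
open Vale.Agent.P269.G2.H333 (ev0)
open Vale.Agent.P269.G2.H984 (RF rhoc dP)

variable {X : CompleteIntersection} {F : ℕ → ℕ → List (Ins X) → ℂ}

/-- **[Yo]** descendants -/
theorem virasoro_le (hF : IsGW X F) (he : Even X.dim) (h1 : IsGenusOneFull F)
    (hX : 3 ≤ X.dim) (hm : 2 ≤ excess X) (hi : 2 ≤ index X)
    (h0 : ∀ k d (L : List (Fin (X.dim + 1))), virasoro X F (k + 1) 1 d (L.map (hpow X)) = 0)
    (N0 : ℕ) (hN : ∀ N p d : ℕ, 1 ≤ N → N ≤ N0 → 1 ≤ p → p + 1 ≤ excess X →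
      (3 ≤ excess X → N % 2 = 0) → 2 * (index X * d) ≠ 2 * (p : ℤ) + N * ((X.dim : ℤ) - 2))
    (K d : ℕ) (L : List (Ins X)) (hL : (L.countP fun x => x.1.isRight) ≤ N0) :
    virasoro X F K 1 d L = 0 := by
  cases K with
  | zero => exact H597.virasoro_zero hF 1 d L
  | succ k =>
    have h := virasoro_small_le hF he h1 hX hm hi h0 N0 hN k
    exact vir_descend hF he h1.trr1 (h1.mono1 0) k N0 h d L hL

/-- **[Yp]** excess three: all genus-one constraints, arbitrary insertions -/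
theorem virasoro_three (hF : IsGW X F) (he : Even X.dim) (h1 : IsGenusOneFull F)
    (hX : 6 ≤ X.dim) (hm : excess X = 3) (hidx : index X = (X.dim : ℤ) + 1 - excess X)
    (h0 : ∀ k d (L : List (Fin (X.dim + 1))), virasoro X F (k + 1) 1 d (L.map (hpow X)) = 0)
    (K d : ℕ) (L : List (Ins X)) : virasoro X F K 1 d L = 0 := by
  have hdim : (6 : ℤ) ≤ X.dim := by exact_mod_cast hX
  have hi : index X = (X.dim : ℤ) - 2 := by rw [hidx, hm]; push_cast; ring
  refine virasoro_le hF he h1 (by omega) (by omega) (by omega) h0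
    (L.countP fun x => x.1.isRight) ?_ K d L le_rfl
  intro N p d hN _ hp hp2 hpar h
  have hNe : N % 2 = 0 := hpar (by omega)
  obtain ⟨N', rfl⟩ : ∃ N', N = 2 * N' := ⟨N / 2, by omega⟩
  rw [hi] at h
  push_cast at h
  have h2 : ((X.dim : ℤ) - 2) * ((d : ℤ) - N') = p := by linarith
  have hp' : (1 : ℤ) ≤ p ∧ (p : ℤ) ≤ 2 := ⟨by exact_mod_cast hp, by
    have : p ≤ 2 := by omega
    exact_mod_cast this⟩
  rcases le_or_gt ((d : ℤ) - N') 0 with h3 | h3
  · nlinarith
  · nlinarith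

end Vale.Agent.P269.G2
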